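import Vale.Agent.P291.Core2

/-!
# P291: the primes `X r - X s` and regularity
-/

open MvPolynomial

namespace Vale.Agent.P291

section

variable {B Λ : Type*} [DecidableEq B] [CommRing Λ]

/-- substitution `x_r := x_s` -/
noncomputable def rh (r s : B) : SS B Λ →ₐ[Λ] SS B Λ := rename (Function.update id r s)

theorem rh_X_self (r s : B) : rh r s (X r : SS B Λ) = X s := by simp [rh]

theorem rh_X_other {r s b : B} (h : b ≠ r) : rh r s (X b : SS B Λ) = X b := by
  simp [rh, Function.update_of_ne h]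

theorem dvd_sub_rh (r s : B) (f : SS B Λ) : (X r - X s : SS B Λ) ∣ f - rh r s f := by
  induction f using MvPolynomial.induction_on with
  | C a => simp [rh]
  | add p q hp hq =>
    have : p + q - rh r s (p + q) = (p - rh r s p) + (q - rh r s q) := by
      rw [map_add]; ring
    rw [this]; exact dvd_add hp hq
  | mul_X p b hp =>
    have : p * X b - rh r s (p * X b) =
        (p - rh r s p) * X b + rh r s p * (X b - rh r s (X b)) := by
      rw [map_mul]; ring
    rw [this]
    refine dvd_add (dvd_mul_of_dvd_left hp _) (dvd_mul_of_dvd_right ?_ _)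
    by_cases hb : b = r
    · subst hb; rw [rh_X_self]
    · rw [rh_X_other hb, sub_self]; exact dvd_zero _

theorem rh_delta {r s : B} : rh r s (X r - X s : SS B Λ) = 0 := by
  by_cases h : s = r
  · subst h; simp
  · rw [map_sub, rh_X_self, rh_X_other h, sub_self]

theorem dvd_iff_rh {r s : B} (f : SS B Λ) :
    (X r - X s : SS B Λ) ∣ f ↔ rh r s f = 0 := by
  constructor
  · rintro ⟨g, rfl⟩
    rw [map_mul, rh_delta, zero_mul]
  · intro h
    have := dvd_sub_rh r s f
    rwa [h, sub_zero] at this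

theorem delta_ne_zero [Nontrivial Λ] {r s : B} (hrs : r ≠ s) : (X r - X s : SS B Λ) ≠ 0 := by
  rw [sub_ne_zero]
  intro h
  exact hrs (MvPolynomial.X_injective h)

theorem delta_prime [IsDomain Λ] {r s : B} (hrs : r ≠ s) : Prime (X r - X s : SS B Λ) := by
  refine ⟨delta_ne_zero hrs, ?_, ?_⟩
  · intro h
    have h1 : (X r - X s : SS B Λ) ∣ 1 := h.dvd
    rw [dvd_iff_rh, map_one] at h1
    exact one_ne_zero h1
  · intro a b h
    rw [dvd_iff_rh, map_mul, mul_eq_zero] at h
    rw [dvd_iff_rh, dvd_iff_rh]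
    exact h

/-- `x_a - x_b` is divisible by `x_r - x_s` only if `{a,b} = {r,s}` (or `a = b`). -/
theorem not_delta_dvd [IsDomain Λ] {r s a b : B} (hab : a ≠ b)
    (h : ¬ ((a = r ∧ b = s) ∨ (a = s ∧ b = r))) : ¬ (X r - X s : SS B Λ) ∣ X a - X b := by
  rw [dvd_iff_rh, map_sub, sub_eq_zero]
  by_cases ha : a = r
  · subst ha
    have hb : b ≠ a := fun h' => hab h'.symm
    rw [rh_X_self, rh_X_other hb]
    intro h'
    have := MvPolynomial.X_injective h'
    exact h (Or.inl ⟨rfl, this.symm⟩)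
  · by_cases hb : b = r
    · subst hb
      rw [rh_X_self, rh_X_other ha]
      intro h'
      exact h (Or.inr ⟨MvPolynomial.X_injective h', rfl⟩)
    · rw [rh_X_other ha, rh_X_other hb]
      intro h'
      exact hab (MvPolynomial.X_injective h')

end

section

variable {B Λ : Type*} [CommRing Λ] [IsDomain Λ]

theorem RegAt.toK' {δ : SS B Λ} (hδ : Prime δ) (p : SS B Λ) : RegAt δ (toK p) :=
  ⟨p, 1, hδ.not_dvd_one, by simp⟩

theorem RegAt.zero' {δ : SS B Λ} (hδ : Prime δ) : RegAt δ (0 : KK B Λ) :=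
  ⟨0, 1, hδ.not_dvd_one, by simp⟩

theorem RegAt.add' {δ : SS B Λ} (hδ : Prime δ) {f g : KK B Λ} (hf : RegAt δ f)
    (hg : RegAt δ g) : RegAt δ (f + g) := by
  obtain ⟨p, q, hq, h⟩ := hf
  obtain ⟨p', q', hq', h'⟩ := hg
  refine ⟨p * q' + p' * q, q * q', fun hd => (hδ.dvd_or_dvd hd).elim hq hq', ?_⟩
  simp only [toK, map_mul, map_add] at *
  rw [← h, ← h']; ring

theorem RegAt.mul' {δ : SS B Λ} (hδ : Prime δ) {f g : KK B Λ} (hf : RegAt δ f)
    (hg : RegAt δ g) : RegAt δ (f * g) := by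
  obtain ⟨p, q, hq, h⟩ := hf
  obtain ⟨p', q', hq', h'⟩ := hg
  refine ⟨p * p', q * q', fun hd => (hδ.dvd_or_dvd hd).elim hq hq', ?_⟩
  simp only [toK, map_mul] at *
  rw [← h, ← h']; ring

theorem RegAt.neg' {δ : SS B Λ} {f : KK B Λ} (hf : RegAt δ f) : RegAt δ (-f) := by
  obtain ⟨p, q, hq, h⟩ := hf
  exact ⟨-p, q, hq, by simp only [toK, map_neg] at *; rw [← h]; ring⟩

theorem RegAt.inv' {δ : SS B Λ} {q : SS B Λ} (hq : ¬ δ ∣ q) :
    RegAt δ ((toK q)⁻¹ : KK B Λ) := by
  have hq0 : q ≠ 0 := fun h => hq (h ▸ dvd_zero _)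
  have : (toK q : KK B Λ) ≠ 0 := by
    simpa [toK] using hq0
  exact ⟨1, q, hq, by simp [this]⟩

theorem RegAt.sum' {δ : SS B Λ} (hδ : Prime δ) {ι : Type*} (s : Finset ι) (f : ι → KK B Λ)
    (hf : ∀ i ∈ s, RegAt δ (f i)) : RegAt δ (∑ i ∈ s, f i) := by
  classical
  induction s using Finset.induction_on with
  | empty => simpa using RegAt.zero' hδ
  | insert a s ha ih =>
    rw [Finset.sum_insert ha]
    exact RegAt.add' hδ (hf a (Finset.mem_insert_self _ _))
      (ih fun i hi => hf i (Finset.mem_insert_of_mem hi))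

/-- the subring of rational functions regular at the prime `δ` -/
def regSub (δ : SS B Λ) (hδ : Prime δ) : Subring (KK B Λ) where
  carrier := {f | RegAt δ f}
  mul_mem' := fun ha hb => RegAt.mul' hδ ha hb
  one_mem' := by simpa using RegAt.toK' hδ (1 : SS B Λ)
  add_mem' := fun ha hb => RegAt.add' hδ ha hb
  zero_mem' := RegAt.zero' hδ
  neg_mem' := fun ha => RegAt.neg' ha

theorem mem_regSub {δ : SS B Λ} {hδ : Prime δ} {f : KK B Λ} : f ∈ regSub δ hδ ↔ RegAt δ f :=
  Iff.rfl

end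

end Vale.Agent.P291
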